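import Vale.Agent.P318.Blow

namespace Vale.Agent.Results.P318.GapStructure

open Vale.Agent.P318

theorem result :
    ∃ g : ℕ → ℝ,
      (∀ n : ℕ, 2 ≤ n → IsLUB (gapSet n) (g n)) ∧
      (∀ n : ℕ, 2 ≤ n → n ≤ 4 →
        (∀ c : Fin n → Fin n → ℝ, IsCapacity c → glVal c = Phi c) ∧ g n = 1) ∧
      (∀ n : ℕ, 2 ≤ n → 1 ≤ g n ∧ g n ≤ (n : ℝ) / 2) ∧
      10 / 9 ≤ g 5 ∧
      (∀ n : ℕ, 5 ≤ n →
        30 / 29 ≤ g n ∧ (n : ℝ) * ((n : ℝ) + 1) / ((n : ℝ) * ((n : ℝ) + 1) - 3) ≤ g n) ∧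
      (∀ n : ℕ, 2 ≤ n →
        (n : ℝ) * ((n : ℝ) + 1) * (1 - 1 / g n) ≤
          ((n : ℝ) + 1) * ((n : ℝ) + 2) * (1 - 1 / g (n + 1))) ∧
      (∀ n a b N : ℕ, 2 ≤ n → 1 ≤ a → a * n ≤ N → N ≤ b * n →
        ((a : ℝ) / (b : ℝ)) ^ 2 * g n ≤ g N) := by
  refine ⟨fun n => sSup (gapSet n), fun n hn => isLUB_gapSet hn, ?_, fun n hn =>
    ⟨one_le_gap hn, gap_le_half hn⟩, gap_five, fun n hn => ⟨uniform_lower hn, lower_gap n hn⟩,
    fun n hn => mono_quantity hn, fun n a b N hn ha h1 h2 => quasi_monotone_gen hn ha h1 h2⟩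
  intro n h2 h4
  have hcases : n = 2 ∨ n = 3 ∨ n = 4 := by omega
  rcases hcases with rfl | rfl | rfl
  · exact ⟨fun c hc => exact_two hc, sSup_gapSet_eq_one le_rfl fun c hc => exact_two hc⟩
  · exact ⟨fun c hc => exact_three hc, sSup_gapSet_eq_one (by norm_num) fun c hc => exact_three hc⟩
  · exact ⟨fun c hc => exact_four hc, sSup_gapSet_eq_one (by norm_num) fun c hc => exact_four hc⟩

end Vale.Agent.Results.P318.GapStructure
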